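import Mathlib.Combinatorics.SetFamily.Shatter
import Mathlib.Analysis.SpecialFunctions.Exp
import Mathlib.Analysis.SpecialFunctions.Log.Basic
import Mathlib.Analysis.SpecialFunctions.Pow.Real
import Mathlib.Data.Nat.Choose.Sum
import Mathlib.Data.Nat.Choose.Bounds
import Mathlib.Tactic

set_option linter.all false

/-!
# P057: progressions in sets of low VC-dimension, combinatorial part
-/

namespace Vale.Agent.P057.H279
open Finset

/-- the finite set `S` is shattered by the translates of `A`: every subset of `S` is cut out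
by a translate of `A` -/
def Shattered (A : Set ℤ) (S : Finset ℤ) : Prop :=
  ∀ T ⊆ S, ∃ t : ℤ, ∀ s ∈ S, (s + t ∈ A ↔ s ∈ T)

/-- the family of all translates of `A` has VC-dimension at most `x` -/
def VCLe (A : Set ℤ) (x : ℝ) : Prop := ∀ S : Finset ℤ, Shattered A S → (S.card : ℝ) ≤ x

/-- `A` contains an arithmetic progression with `k` terms and positive difference -/
def HasAP (A : Set ℤ) (k : ℕ) : Prop := ∃ a d : ℤ, 0 < d ∧ ∀ i : ℕ, i < k → a + i * d ∈ A

section
open Classical

lemma count (A B : Set ℤ) (k : ℕ) (hA : ¬ HasAP A k) (t u : ℤ) (hu : 0 < u)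
    (P X E : Finset ℤ) (hP : ∀ b ∈ P, b ∈ B)
    (hX : ∀ b ∈ P, ∀ j : ℕ, j + 1 < k → b + j * u ∈ B → b + j * u - t ∈ X)
    (hE : ∀ b ∈ P, ∀ j : ℕ, j < k → b + j * u ∈ B → b + j * u ∉ A → b + j * u ∈ E) :
    P.card ≤ (k - 1) * (X.filter (fun x => x + t ∈ B ∧ x + (t + u) ∉ B)).card + k * E.card := by
  set D := X.filter (fun x => x + t ∈ B ∧ x + (t + u) ∉ B) with hD
  have hsub : P ⊆ ((range (k - 1)).biUnion (fun j => D.image (fun x => x + t - j * u))) ∪
      ((range k).biUnion (fun j => E.image (fun x => x - j * u))) := by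
    intro b hb
    by_cases h1 : ∃ j : ℕ, j < k ∧ b + j * u ∉ B
    · have hmin := Nat.find_spec h1
      have hi0 : Nat.find h1 ≠ 0 := by
        intro h0
        have h2 := hmin.2
        rw [h0] at h2
        simp only [Nat.cast_zero, zero_mul, add_zero] at h2
        exact h2 (hP b hb)
      obtain ⟨j, hj⟩ := Nat.exists_eq_succ_of_ne_zero hi0
      have hjB : b + j * u ∈ B := by
        by_contra hc
        have h3 := Nat.find_min h1 (m := j) (by omega)
        exact h3 ⟨by omega, hc⟩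
      have hxX := hX b hb j (by omega) hjB
      rw [mem_union]; left
      rw [mem_biUnion]
      refine ⟨j, by rw [mem_range]; omega, ?_⟩
      rw [mem_image]
      refine ⟨b + j * u - t, ?_, by ring⟩
      rw [hD, mem_filter]
      refine ⟨hxX, ?_, ?_⟩
      · have h4 : b + j * u - t + t = b + j * u := by ring
        rw [h4]; exact hjB
      · have h4 : b + j * u - t + (t + u) = b + (Nat.find h1 : ℕ) * u := by
          rw [hj]; push_cast; ring
        rw [h4]; exact hmin.2
    · push Not at h1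
      have h2 : ∃ j : ℕ, j < k ∧ b + j * u ∉ A := by
        by_contra hc
        push Not at hc
        exact hA ⟨b, u, hu, hc⟩
      obtain ⟨j, hj, hjA⟩ := h2
      rw [mem_union]; right
      rw [mem_biUnion]
      exact ⟨j, mem_range.mpr hj, mem_image.mpr ⟨b + j * u, hE b hb j hj (h1 j hj) hjA, by ring⟩⟩
  calc P.card ≤ _ := card_le_card hsub
    _ ≤ _ + _ := card_union_le _ _
    _ ≤ (range (k - 1)).card * D.card + (range k).card * E.card := by
      apply Nat.add_le_add
      · apply card_biUnion_le_card_mul; intro j _; exact card_image_le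
      · apply card_biUnion_le_card_mul; intro j _; exact card_image_le
    _ = _ := by rw [card_range, card_range]

lemma exists_sample {ι : Type} (c : ι → ℤ → Prop) (m : ℕ) (ε : ℝ) (hε : ε ≤ 1) (X : Finset ℤ)
    (hX : 0 < X.card) (Z : Finset ι)
    (hsep : ∀ z ∈ Z, ∀ z' ∈ Z, z ≠ z' →
      ε * X.card ≤ ((X.filter (fun x => ¬ (c z x ↔ c z' x))).card : ℝ))
    (h : (Z.card : ℝ) ^ 2 * Real.exp (-(ε * m)) < 1) :
    ∃ b : Fin m → ℤ, (∀ i, b i ∈ X) ∧
      ∀ z ∈ Z, ∀ z' ∈ Z, z ≠ z' → ∃ i, ¬ (c z (b i) ↔ c z' (b i)) := by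
  by_contra hcon
  push Not at hcon
  have hκr : (0 : ℝ) < X.card := by exact_mod_cast hX
  have hcov : (Fintype.piFinset (fun _ : Fin m => X)) ⊆
      ((Z ×ˢ Z).filter (fun p => p.1 ≠ p.2)).biUnion
      (fun p => Fintype.piFinset (fun _ : Fin m => X.filter (fun x => (c p.1 x ↔ c p.2 x)))) := by
    intro b hb
    rw [Fintype.mem_piFinset] at hb
    obtain ⟨z, hz, z', hz', hne, ht⟩ := hcon b hb
    rw [mem_biUnion]
    refine ⟨(z, z'), ?_, ?_⟩
    · rw [mem_filter, mem_product]; exact ⟨⟨hz, hz'⟩, hne⟩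
    · rw [Fintype.mem_piFinset]
      intro t
      rw [mem_filter]
      exact ⟨hb t, ht t⟩
  have h1 : ((X.card : ℝ)) ^ m ≤ (Z.card : ℝ) ^ 2 * ((1 - ε) * X.card) ^ m := by
    calc ((X.card : ℝ)) ^ m = ((Fintype.piFinset (fun _ : Fin m => X)).card : ℝ) := by
          rw [Fintype.card_piFinset, prod_const, card_univ, Fintype.card_fin]; push_cast; rfl
      _ ≤ ((((Z ×ˢ Z).filter (fun p => p.1 ≠ p.2)).biUnion
          (fun p => Fintype.piFinset (fun _ : Fin m =>
            X.filter (fun x => (c p.1 x ↔ c p.2 x))))).card : ℝ) := by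
          exact_mod_cast card_le_card hcov
      _ ≤ ∑ p ∈ (Z ×ˢ Z).filter (fun p => p.1 ≠ p.2), ((Fintype.piFinset (fun _ : Fin m =>
            X.filter (fun x => (c p.1 x ↔ c p.2 x)))).card : ℝ) := by
          exact_mod_cast card_biUnion_le
      _ ≤ ∑ p ∈ (Z ×ˢ Z).filter (fun p => p.1 ≠ p.2), ((1 - ε) * X.card) ^ m := by
          apply sum_le_sum
          intro p hp
          rw [mem_filter, mem_product] at hp
          rw [Fintype.card_piFinset, prod_const, card_univ, Fintype.card_fin]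
          push_cast
          apply pow_le_pow_left₀ (by positivity)
          have h2 := hsep p.1 hp.1.1 p.2 hp.1.2 hp.2
          have h3 : (X.filter (fun x => (c p.1 x ↔ c p.2 x))).card +
              (X.filter (fun x => ¬ (c p.1 x ↔ c p.2 x))).card = X.card :=
            card_filter_add_card_filter_not _
          have h4 : ((X.filter (fun x => (c p.1 x ↔ c p.2 x))).card : ℝ) +
              ((X.filter (fun x => ¬ (c p.1 x ↔ c p.2 x))).card : ℝ) = X.card := by
            exact_mod_cast h3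
          linarith only [h2, h4]
      _ = (((Z ×ˢ Z).filter (fun p => p.1 ≠ p.2)).card : ℝ) * ((1 - ε) * X.card) ^ m := by
          rw [sum_const, nsmul_eq_mul]
      _ ≤ (Z.card : ℝ) ^ 2 * ((1 - ε) * X.card) ^ m := by
          apply mul_le_mul_of_nonneg_right
          · have h5 : ((Z ×ˢ Z).filter (fun p => p.1 ≠ p.2)).card ≤ Z.card * Z.card := by
              rw [← card_product]; exact card_filter_le _ _
            rw [sq]
            exact_mod_cast h5
          · apply pow_nonneg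
            apply mul_nonneg (by linarith only [hε]) hκr.le
  rw [mul_pow, ← mul_assoc] at h1
  have h2 : (1 - ε) ^ m ≤ Real.exp (-(ε * m)) := by
    have : Real.exp (-(ε * m)) = (Real.exp (-ε)) ^ m := by
      rw [← Real.exp_nat_mul]; congr 1; ring
    rw [this]
    apply pow_le_pow_left₀ (by linarith only [hε])
    have := Real.add_one_le_exp (-ε)
    linarith only [this]
  have h3 : (Z.card : ℝ) ^ 2 * (1 - ε) ^ m < 1 := by
    refine lt_of_le_of_lt ?_ h
    exact mul_le_mul_of_nonneg_left h2 (by positivity)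
  have h4 : (0 : ℝ) < (X.card : ℝ) ^ m := by positivity
  have h5 : (Z.card : ℝ) ^ 2 * (1 - ε) ^ m * (X.card : ℝ) ^ m < 1 * (X.card : ℝ) ^ m :=
    mul_lt_mul_of_pos_right h3 h4
  linarith only [h1, h5]

lemma sauer {ι : Type} (c : ι → ℤ → Prop) (d m : ℕ)
    (hvc : ∀ S : Finset ℤ, (∀ T ⊆ S, ∃ z, ∀ s ∈ S, (c z s ↔ s ∈ T)) → S.card ≤ d)
    (b : Fin m → ℤ) (Z : Finset ι)
    (hb : ∀ z ∈ Z, ∀ z' ∈ Z, z ≠ z' → ∃ i, ¬ (c z (b i) ↔ c z' (b i))) :
    Z.card ≤ ∑ i ∈ Iic d, m.choose i := by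
  set f : ι → Finset (Fin m) := fun z => univ.filter (fun i => c z (b i)) with hf
  set 𝒜 := Z.image f with h𝒜
  have hcard : Z.card = 𝒜.card := by
    rw [h𝒜, card_image_of_injOn]
    intro z hz z' hz' hzz
    by_contra hne
    obtain ⟨i, hi⟩ := hb z hz z' hz' hne
    apply hi
    have h1 : i ∈ f z ↔ i ∈ f z' := by rw [hzz]
    simpa [hf] using h1
  have hvc' : 𝒜.vcDim ≤ d := by
    unfold Finset.vcDim
    rw [Finset.sup_le_iff]
    intro s hs
    rw [mem_shatterer] at hs
    have hz : ∀ T ⊆ s, ∃ z, ∀ j ∈ s, (c z (b j) ↔ j ∈ T) := by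
      intro T hT
      obtain ⟨u, hu, hsu⟩ := hs hT
      rw [h𝒜, mem_image] at hu
      obtain ⟨z, _, rfl⟩ := hu
      refine ⟨z, fun j hj => ?_⟩
      rw [← hsu, mem_inter, hf, mem_filter]
      simp only [mem_univ, true_and]
      exact ⟨fun h => ⟨hj, h⟩, fun h => h.2⟩
    have hinj : Set.InjOn b s := by
      intro j hj j' hj' hjj
      by_contra hne
      obtain ⟨z, hz⟩ := hz {j} (by simpa using hj)
      have h1 : c z (b j) := (hz j hj).mpr (mem_singleton_self _)
      rw [hjj] at h1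
      have h2 := (hz j' hj').mp h1
      rw [mem_singleton] at h2
      exact hne h2.symm
    rw [← card_image_of_injOn hinj]
    apply hvc
    intro T hT
    obtain ⟨z, hz⟩ := hz (s.filter (fun j => b j ∈ T)) (filter_subset _ _)
    refine ⟨z, fun x hx => ?_⟩
    rw [mem_image] at hx
    obtain ⟨j, hj, rfl⟩ := hx
    have h3 := hz j hj
    rw [h3, mem_filter]
    exact ⟨fun h => h.2, fun h => ⟨hj, h⟩⟩
  calc Z.card = 𝒜.card := hcard
    _ ≤ 𝒜.shatterer.card := card_le_card_shatterer _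
    _ ≤ ∑ k ∈ Iic 𝒜.vcDim, (Fintype.card (Fin m)).choose k := card_shatterer_le_sum_vcDim
    _ = ∑ k ∈ Iic 𝒜.vcDim, m.choose k := by rw [Fintype.card_fin]
    _ ≤ ∑ k ∈ Iic d, m.choose k := sum_le_sum_of_subset (Iic_subset_Iic.mpr hvc')

lemma sum_choose_le (m d : ℕ) (hd : 1 ≤ d) (hdm : d ≤ m) :
    ((∑ i ∈ Iic d, m.choose i : ℕ) : ℝ) ≤ (Real.exp 1 * m / d) ^ d := by
  have hd0 : (0 : ℝ) < d := by exact_mod_cast hd
  have hm0 : (0 : ℝ) < m := by exact_mod_cast (lt_of_lt_of_le hd hdm)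
  have hdm' : (d : ℝ) ≤ m := by exact_mod_cast hdm
  have h1 : ∀ i ∈ Iic d, ((m.choose i : ℕ) : ℝ) ≤
      ((m : ℝ) / d) ^ d * ((m.choose i : ℝ) * ((d : ℝ) / m) ^ i) := by
    intro i hi
    rw [mem_Iic] at hi
    have h2 : ((m : ℝ) / d) ^ d * ((d : ℝ) / m) ^ i = ((m : ℝ) / d) ^ (d - i) := by
      have h3 : ((m : ℝ) / d) ^ d = ((m : ℝ) / d) ^ (d - i) * ((m : ℝ) / d) ^ i := by
        rw [← pow_add]; congr 1; omega
      rw [h3, mul_assoc, ← mul_pow]
      have h4 : (m : ℝ) / d * ((d : ℝ) / m) = 1 := by field_simp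
      rw [h4, one_pow, mul_one]
    have h5 : (1 : ℝ) ≤ ((m : ℝ) / d) ^ (d - i) := by
      apply one_le_pow₀
      rw [le_div_iff₀ hd0]; linarith
    have h6 : (0 : ℝ) ≤ (m.choose i : ℝ) := by positivity
    calc ((m.choose i : ℕ) : ℝ) = (m.choose i : ℝ) * 1 := by ring
      _ ≤ (m.choose i : ℝ) * ((m : ℝ) / d) ^ (d - i) := mul_le_mul_of_nonneg_left h5 h6
      _ = _ := by rw [← h2]; ring
  push_cast
  calc (∑ i ∈ Iic d, (m.choose i : ℝ))
      ≤ ∑ i ∈ Iic d, ((m : ℝ) / d) ^ d * ((m.choose i : ℝ) * ((d : ℝ) / m) ^ i) :=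
        sum_le_sum h1
    _ ≤ ∑ i ∈ range (m + 1), ((m : ℝ) / d) ^ d * ((m.choose i : ℝ) * ((d : ℝ) / m) ^ i) := by
        apply sum_le_sum_of_subset_of_nonneg
        · intro i hi
          rw [mem_Iic] at hi
          rw [mem_range]; omega
        · intro i _ _; positivity
    _ = ((m : ℝ) / d) ^ d * (((d : ℝ) / m + 1) ^ m) := by
        rw [← mul_sum]
        congr 1
        rw [add_pow]
        apply sum_congr rfl
        intro i _
        rw [one_pow, mul_one]; ring
    _ ≤ ((m : ℝ) / d) ^ d * (Real.exp 1) ^ d := by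
        apply mul_le_mul_of_nonneg_left _ (by positivity)
        calc ((d : ℝ) / m + 1) ^ m ≤ (Real.exp ((d : ℝ) / m)) ^ m :=
              pow_le_pow_left₀ (by positivity) (Real.add_one_le_exp _) _
          _ = Real.exp d := by
              rw [← Real.exp_nat_mul]; congr 1; field_simp
          _ = (Real.exp 1) ^ d := by
              rw [← Real.exp_nat_mul]; congr 1; ring
    _ = _ := by rw [← mul_pow]; congr 1; ring

end

end Vale.Agent.P057.H279
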