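import Vale.Agent.P057.R2.H279.Base
import Mathlib.Analysis.Complex.ExponentialBounds

set_option linter.all false

/-!
# P057: progressions with prescribed common differences in sets of low VC-dimension
-/

namespace Vale.Agent.P057.H279
open Finset

section
open Classical

lemma count2 (A B : Set ℤ) (k : ℕ) (t u : ℤ)
    (hA : ¬ ∃ a : ℤ, ∀ i : ℕ, i < k → a + i * u ∈ A)
    (P X E : Finset ℤ) (hP : ∀ b ∈ P, b ∈ B)
    (hX : ∀ b ∈ P, ∀ j : ℕ, j + 1 < k → b + j * u ∈ B → b + j * u - t ∈ X)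
    (hE : ∀ b ∈ P, ∀ j : ℕ, j < k → b + j * u ∈ B → b + j * u ∉ A → b + j * u ∈ E) :
    P.card ≤ (k - 1) * (X.filter (fun x => x + t ∈ B ∧ x + (t + u) ∉ B)).card + k * E.card := by
  set D := X.filter (fun x => x + t ∈ B ∧ x + (t + u) ∉ B) with hD
  have hsub : P ⊆ ((range (k - 1)).biUnion (fun j => D.image (fun x => x + t - j * u))) ∪
      ((range k).biUnion (fun j => E.image (fun x => x - j * u))) := by
    intro b hb
    by_cases h1 : ∃ j : ℕ, j < k ∧ b + j * u ∉ B
    · have hmin := Nat.find_spec h1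
      have hi0 : Nat.find h1 ≠ 0 := by
        intro h0
        have h2 := hmin.2
        rw [h0] at h2
        simp only [Nat.cast_zero, zero_mul, add_zero] at h2
        exact h2 (hP b hb)
      obtain ⟨j, hj⟩ := Nat.exists_eq_succ_of_ne_zero hi0
      have hjB : b + j * u ∈ B := by
        by_contra hc
        have h3 := Nat.find_min h1 (m := j) (by omega)
        exact h3 ⟨by omega, hc⟩
      have hxX := hX b hb j (by omega) hjB
      rw [mem_union]; left
      rw [mem_biUnion]
      refine ⟨j, by rw [mem_range]; omega, ?_⟩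
      rw [mem_image]
      refine ⟨b + j * u - t, ?_, by ring⟩
      rw [hD, mem_filter]
      refine ⟨hxX, ?_, ?_⟩
      · have h4 : b + j * u - t + t = b + j * u := by ring
        rw [h4]; exact hjB
      · have h4 : b + j * u - t + (t + u) = b + (Nat.find h1 : ℕ) * u := by
          rw [hj]; push_cast; ring
        rw [h4]; exact hmin.2
    · push Not at h1
      have h2 : ∃ j : ℕ, j < k ∧ b + j * u ∉ A := by
        by_contra hc
        push Not at hc
        exact hA ⟨b, hc⟩
      obtain ⟨j, hj, hjA⟩ := h2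
      rw [mem_union]; right
      rw [mem_biUnion]
      exact ⟨j, mem_range.mpr hj, mem_image.mpr ⟨b + j * u, hE b hb j hj (h1 j hj) hjA, by ring⟩⟩
  calc P.card ≤ _ := card_le_card hsub
    _ ≤ _ + _ := card_union_le _ _
    _ ≤ (range (k - 1)).card * D.card + (range k).card * E.card := by
      apply Nat.add_le_add
      · apply card_biUnion_le_card_mul; intro j _; exact card_image_le
      · apply card_biUnion_le_card_mul; intro j _; exact card_image_le
    _ = _ := by rw [card_range, card_range]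

/-- many translates of a set without progressions of difference in `T - T` are told apart by few
points -/
theorem ident2 (k N : ℕ) (hk : 2 ≤ k) (hN : 1 ≤ Real.log N) (T : Finset ℕ)
    (hT : ∀ t ∈ T, k * t < N) (A B : Set ℤ)
    (hA : ∀ t ∈ T, ∀ t' ∈ T, t < t' →
      ¬ ∃ a : ℤ, ∀ i : ℕ, i < k → a + i * ((t' : ℤ) - t) ∈ A)
    (M : ℤ) (P : Finset ℤ) (hPdef : P = (Icc (M + 1) (M + N)).filter (fun x => x ∈ B))
    (hPpos : 0 < P.card)
    (hE : 2 * k * ((Icc (M + 1) (M + 2 * N)).filter (fun x => x ∈ B ∧ x ∉ A)).card ≤ P.card) :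
    ∃ (m : ℕ) (b : Fin m → ℤ), (m : ℝ) ≤ 13 * (k - 1) * N * Real.log N / P.card ∧
      Real.log N ≤ m ∧
      ∀ z ∈ T, ∀ z' ∈ T, z ≠ z' →
        ∃ i, ¬ ((b i + (z : ℤ) ∈ B) ↔ (b i + (z' : ℤ) ∈ B)) := by
  have hNpos : 0 < N := by
    rcases Nat.eq_zero_or_pos N with h | h
    · rw [h] at hN; simp at hN; linarith
    · exact h
  have hk0 : 0 < k := by omega
  have hTN : ∀ t ∈ T, t < N := by
    intro t ht
    have h1 := hT t ht
    have h2 : t ≤ k * t := Nat.le_mul_of_pos_left _ hk0
    omega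
  have hTcard : T.card ≤ N := by
    have h1 : T ⊆ range N := fun t ht => mem_range.mpr (hTN t ht)
    have h2 := card_le_card h1
    rwa [card_range] at h2
  set X : Finset ℤ := Icc (M + 1 - N) (M + 2 * N) with hX
  have hXcard : X.card = 3 * N := by
    rw [hX, Int.card_Icc]; omega
  have hPN : P.card ≤ N := by
    rw [hPdef]
    refine (card_filter_le _ _).trans ?_
    rw [Int.card_Icc]; omega
  have hPr : (0 : ℝ) < P.card := by exact_mod_cast hPpos
  have hNr : (0 : ℝ) < N := by exact_mod_cast hNpos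
  have hk1 : (1 : ℝ) ≤ (k : ℝ) - 1 := by
    have : (2 : ℝ) ≤ k := by exact_mod_cast hk
    linarith
  set ε : ℝ := P.card / (6 * (k - 1) * N) with hε
  have hεpos : 0 < ε := by positivity
  have hε1 : ε ≤ 1 / 6 := by
    rw [hε, div_le_iff₀ (by positivity)]
    have h1 : (P.card : ℝ) ≤ N := by exact_mod_cast hPN
    nlinarith
  have hone : ∀ z ∈ T, ∀ z' ∈ T, z < z' →
      ε * X.card ≤ ((X.filter (fun x => x + (z : ℤ) ∈ B ∧ x + (z' : ℤ) ∉ B)).card : ℝ) := by
    intro z hz z' hz' hzz
    have hzN := hTN z hz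
    have hz'N := hTN z' hz'
    have hkz' : (k : ℤ) * (z' : ℤ) < N := by exact_mod_cast hT z' hz'
    have hjk : ∀ j : ℕ, j < k → (j : ℤ) * ((z' : ℤ) - z) < N := by
      intro j hj
      have h1 : (j : ℤ) * ((z' : ℤ) - z) ≤ (k : ℤ) * (z' : ℤ) := by
        apply mul_le_mul
        · exact_mod_cast hj.le
        · omega
        · omega
        · positivity
      linarith
    have hjn : ∀ j : ℕ, 0 ≤ (j : ℤ) * ((z' : ℤ) - z) := by
      intro j
      apply mul_nonneg (by positivity)
      omega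
    have hc := count2 A B k (z : ℤ) ((z' : ℤ) - z) (hA z hz z' hz' hzz) P X
      ((Icc (M + 1) (M + 2 * N)).filter (fun x => x ∈ B ∧ x ∉ A))
      (by
        intro b hb
        rw [hPdef, mem_filter] at hb
        exact hb.2)
      (by
        intro b hb j hj hjB
        rw [hPdef, mem_filter, mem_Icc] at hb
        rw [hX, mem_Icc]
        have h1 := hjk j (by omega)
        have h2 := hjn j
        constructor
        · omega
        · omega)
      (by
        intro b hb j hj hjB hjA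
        rw [hPdef, mem_filter, mem_Icc] at hb
        rw [mem_filter, mem_Icc]
        have h1 := hjk j hj
        have h2 := hjn j
        refine ⟨⟨by omega, by omega⟩, hjB, hjA⟩)
    have hzz' : (z : ℤ) + ((z' : ℤ) - z) = z' := by ring
    rw [hzz'] at hc
    set D := X.filter (fun x => x + (z : ℤ) ∈ B ∧ x + (z' : ℤ) ∉ B) with hD
    set E := (Icc (M + 1) (M + 2 * N)).filter (fun x => x ∈ B ∧ x ∉ A) with hEdef
    have hcr : (P.card : ℝ) ≤ ((k : ℝ) - 1) * D.card + k * E.card := by
      have h1 : ((P.card : ℕ) : ℝ) ≤ (((k - 1) * D.card + k * E.card : ℕ) : ℝ) := by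
        exact_mod_cast hc
      push_cast [Nat.cast_sub (by omega : 1 ≤ k)] at h1
      exact h1
    have hEr : 2 * (k : ℝ) * E.card ≤ P.card := by exact_mod_cast hE
    have hXr : (X.card : ℝ) ≤ 3 * N := by
      rw [hXcard]; push_cast
      exact le_refl _
    have h2 : (P.card : ℝ) ≤ 2 * (((k : ℝ) - 1) * D.card) := by linarith
    calc ε * X.card ≤ ε * (3 * N) := mul_le_mul_of_nonneg_left hXr hεpos.le
      _ = P.card / (2 * ((k : ℝ) - 1)) := by
          rw [hε]; field_simp; ring
      _ ≤ D.card := by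
          rw [div_le_iff₀ (by positivity)]
          linarith
  have hsep : ∀ z ∈ T, ∀ z' ∈ T, z ≠ z' →
      ε * X.card ≤ ((X.filter (fun x => ¬ ((x + (z : ℤ) ∈ B) ↔ (x + (z' : ℤ) ∈ B)))).card : ℝ) := by
    intro z hz z' hz' hne
    rcases lt_or_gt_of_ne hne with h | h
    · refine (hone z hz z' hz' h).trans ?_
      exact_mod_cast card_le_card (fun x hx => by
        rw [mem_filter] at hx ⊢
        exact ⟨hx.1, fun hi => hx.2.2 (hi.mp hx.2.1)⟩)
    · refine (hone z' hz' z hz h).trans ?_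
      exact_mod_cast card_le_card (fun x hx => by
        rw [mem_filter] at hx ⊢
        exact ⟨hx.1, fun hi => hx.2.2 (hi.mpr hx.2.1)⟩)
  set m : ℕ := ⌊2 * Real.log N / ε⌋₊ + 1 with hm
  have hmlow : 2 * Real.log N / ε < m := by
    rw [hm]; push_cast; exact Nat.lt_floor_add_one _
  have hbig : (12 : ℝ) ≤ 2 * Real.log N / ε := by
    rw [le_div_iff₀ hεpos]
    nlinarith
  have hmup : (m : ℝ) ≤ 2 * Real.log N / ε + 1 := by
    rw [hm]; push_cast
    have := Nat.floor_le (by positivity : 0 ≤ 2 * Real.log N / ε)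
    linarith
  obtain ⟨b, hb1, hb2⟩ := exists_sample (fun (z : ℕ) (x : ℤ) => x + (z : ℤ) ∈ B) m ε
    (by linarith) X (by rw [hXcard]; omega) T hsep (by
      have h1 : 2 * Real.log N < ε * m := by
        rw [div_lt_iff₀ hεpos] at hmlow
        linarith
      have h2 : (T.card : ℝ) ^ 2 ≤ (N : ℝ) ^ 2 := by
        apply pow_le_pow_left₀ (by positivity)
        exact_mod_cast hTcard
      have h3 : (N : ℝ) ^ 2 = Real.exp (2 * Real.log N) := by
        rw [mul_comm, Real.exp_mul, Real.exp_log hNr]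
        norm_cast
      calc (T.card : ℝ) ^ 2 * Real.exp (-(ε * m))
          ≤ Real.exp (2 * Real.log N) * Real.exp (-(ε * m)) := by
            rw [← h3]; exact mul_le_mul_of_nonneg_right h2 (Real.exp_pos _).le
        _ = Real.exp (2 * Real.log N - ε * m) := by rw [← Real.exp_add]; congr 1
        _ < 1 := by
            rw [← Real.exp_zero]
            apply Real.exp_lt_exp.mpr
            linarith)
  refine ⟨m, b, ?_, ?_, hb2⟩
  · have h1 : (m : ℝ) ≤ 13 / 12 * (2 * Real.log N / ε) := by linarith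
    refine h1.trans (le_of_eq ?_)
    rw [hε]; field_simp; ring
  · have h1 : Real.log N ≤ 2 * Real.log N / ε := by
      rw [le_div_iff₀ hεpos]
      nlinarith
    linarith

theorem main2 (k N d : ℕ) (hk : 2 ≤ k) (hd : 1 ≤ d) (hdN : (d : ℝ) ≤ Real.log N)
    (T : Finset ℕ) (hT : ∀ t ∈ T, k * t < N) (A B : Set ℤ) (hvc : VCLe B d)
    (hA : ∀ t ∈ T, ∀ t' ∈ T, t < t' →
      ¬ ∃ a : ℤ, ∀ i : ℕ, i < k → a + i * ((t' : ℤ) - t) ∈ A)
    (M : ℤ) (P : Finset ℤ) (hPdef : P = (Icc (M + 1) (M + N)).filter (fun x => x ∈ B))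
    (hE : 2 * k * ((Icc (M + 1) (M + 2 * N)).filter (fun x => x ∈ B ∧ x ∉ A)).card ≤ P.card) :
    (P.card : ℝ) * (T.card : ℝ) ^ (1 / (d : ℝ)) ≤ 36 * k * (Real.log N / d) * N := by
  have hd1 : (1 : ℝ) ≤ d := by exact_mod_cast hd
  have hlog : 1 ≤ Real.log N := hd1.trans hdN
  have hNpos : 0 < N := by
    rcases Nat.eq_zero_or_pos N with h | h
    · rw [h] at hlog; simp at hlog; linarith
    · exact h
  have hNr : (0 : ℝ) < N := by exact_mod_cast hNpos
  rcases Nat.eq_zero_or_pos P.card with h0 | hPpos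
  · rw [h0]; push_cast; rw [zero_mul]; positivity
  obtain ⟨m, b, hm1, hm2, hb⟩ := ident2 k N hk hlog T hT A B hA M P hPdef hPpos hE
  have hk0 : 0 < k := by omega
  have hkr : (0 : ℝ) < k := by exact_mod_cast hk0
  have hk1 : (1 : ℝ) ≤ (k : ℝ) - 1 := by
    have : (2 : ℝ) ≤ k := by exact_mod_cast hk
    linarith
  have hPr : (0 : ℝ) < P.card := by exact_mod_cast hPpos
  have hdm : d ≤ m := by
    have : (d : ℝ) ≤ m := hdN.trans hm2
    exact_mod_cast this
  have hsau := sauer (fun (z : ℕ) (x : ℤ) => x + (z : ℤ) ∈ B) d m (by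
    intro S hS
    have h1 : Shattered B S := by
      intro T' hT'
      obtain ⟨z, hz⟩ := hS T' hT'
      exact ⟨(z : ℤ), hz⟩
    exact_mod_cast hvc S h1) b T hb
  have h1 : (T.card : ℝ) ≤ (Real.exp 1 * m / d) ^ d :=
    le_trans (by exact_mod_cast hsau) (sum_choose_le m d hd hdm)
  have hd0 : (0 : ℝ) < d := by linarith
  have h2 : (T.card : ℝ) ^ (1 / (d : ℝ)) ≤ Real.exp 1 * m / d := by
    calc (T.card : ℝ) ^ (1 / (d : ℝ)) ≤ ((Real.exp 1 * m / d) ^ d) ^ (1 / (d : ℝ)) := by
          apply Real.rpow_le_rpow (by positivity) h1 (by positivity)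
      _ = Real.exp 1 * m / d := by
          rw [one_div, Real.pow_rpow_inv_natCast (by positivity) (by omega)]
  have h4 : (T.card : ℝ) ^ (1 / (d : ℝ)) ≤
      Real.exp 1 * (13 * (k - 1) * N * Real.log N / P.card) / d := by
    refine h2.trans ?_
    gcongr
  have he : Real.exp 1 ≤ 2.7182818286 := Real.exp_one_lt_d9.le
  have hlog0 : 0 ≤ Real.log N := by linarith
  have h9 : Real.exp 1 * 13 * ((k : ℝ) - 1) ≤ 36 * k := by nlinarith
  calc (P.card : ℝ) * (T.card : ℝ) ^ (1 / (d : ℝ))
      ≤ P.card * (Real.exp 1 * (13 * (k - 1) * N * Real.log N / P.card) / d) :=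
        mul_le_mul_of_nonneg_left h4 hPr.le
    _ = (Real.exp 1 * 13 * ((k : ℝ) - 1)) * ((Real.log N / d) * N) := by field_simp
    _ ≤ (36 * k) * ((Real.log N / d) * N) := by
        apply mul_le_mul_of_nonneg_right h9; positivity
    _ = _ := by ring

end

end Vale.Agent.P057.H279
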