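import Mathlib.Analysis.PSeries
import Mathlib.Analysis.SpecialFunctions.Log.Basic
import Mathlib.Analysis.SpecialFunctions.Pow.Real
import Mathlib.Tactic

set_option linter.all false

/-!
# P057: counting bounds and the sum of reciprocals
-/

namespace Vale.Agent.P057.H279
open Finset

section
open Classical

/-- the term of the sum of reciprocals over `A` -/
noncomputable def rec (A : Set ℕ) (n : ℕ) : ℝ := if n ∈ A then 1 / (n : ℝ) else 0

lemma rec_nonneg (A : Set ℕ) (n : ℕ) : 0 ≤ rec A n := by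
  unfold rec; split_ifs <;> positivity

lemma sum_two_pow (f : ℕ → ℝ) (J : ℕ) :
    ∑ i ∈ range (2 ^ J), f i = f 0 + ∑ j ∈ range J, ∑ i ∈ Ico (2 ^ j) (2 ^ (j + 1)), f i := by
  induction J with
  | zero => simp
  | succ J ih =>
    rw [sum_range_succ, ← add_assoc, ← ih]
    rw [sum_range_add_sum_Ico]
    exact Nat.pow_le_pow_right (by norm_num) (by omega)

lemma summable_rec (A : Set ℕ) (C θ : ℝ) (hC : 0 ≤ C) (hθ : 0 < θ) (N0 : ℕ)
    (h : ∀ N : ℕ, N0 ≤ N → 2 ≤ N →
      (((Icc 1 N).filter (fun n => n ∈ A)).card : ℝ) ≤ C * N * (Real.log N) ^ (-(1 + θ))) :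
    Summable (rec A) := by
  -- blocks
  set g : ℕ → ℝ := fun j => 2 * C * (Real.log 2) ^ (-(1 + θ)) * ((j + 1 : ℕ) : ℝ) ^ (-(1 + θ)) with hg
  have hlog2 : 0 < Real.log 2 := Real.log_pos (by norm_num)
  have hgs : Summable g := by
    have h1 : Summable (fun n : ℕ => (n : ℝ) ^ (-(1 + θ))) :=
      Real.summable_nat_rpow.mpr (by linarith)
    exact ((summable_nat_add_iff 1).mpr h1).mul_left _
  have hg0 : ∀ j, 0 ≤ g j := by intro j; rw [hg]; positivity
  have hblock : ∀ j : ℕ, N0 ≤ 2 ^ (j + 1) → ∑ i ∈ Ico (2 ^ j) (2 ^ (j + 1)), rec A i ≤ g j := by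
    intro j hj
    have h1 : ∑ i ∈ Ico (2 ^ j) (2 ^ (j + 1)), rec A i ≤
        (((Icc 1 (2 ^ (j + 1))).filter (fun n => n ∈ A)).card : ℝ) * (1 / 2 ^ j) := by
      calc ∑ i ∈ Ico (2 ^ j) (2 ^ (j + 1)), rec A i
          ≤ ∑ i ∈ Ico (2 ^ j) (2 ^ (j + 1)), (if i ∈ A then (1 / 2 ^ j : ℝ) else 0) := by
            apply sum_le_sum
            intro i hi
            rw [mem_Ico] at hi
            unfold rec
            split_ifs
            · apply one_div_le_one_div_of_le (by positivity)
              exact_mod_cast hi.1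
            · exact le_refl _
        _ = (((Ico (2 ^ j) (2 ^ (j + 1))).filter (fun n => n ∈ A)).card : ℝ) * (1 / 2 ^ j) := by
            rw [← sum_filter, sum_const, nsmul_eq_mul]
        _ ≤ _ := by
            apply mul_le_mul_of_nonneg_right _ (by positivity)
            exact_mod_cast card_le_card (fun x hx => by
              rw [mem_filter, mem_Ico] at hx
              rw [mem_filter, mem_Icc]
              have : 1 ≤ 2 ^ j := Nat.one_le_two_pow
              exact ⟨⟨by omega, by omega⟩, hx.2⟩)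
    have h2 := h (2 ^ (j + 1)) hj (by
      calc 2 = 2 ^ 1 := by norm_num
        _ ≤ 2 ^ (j + 1) := Nat.pow_le_pow_right (by norm_num) (by omega))
    refine h1.trans ?_
    calc (((Icc 1 (2 ^ (j + 1))).filter (fun n => n ∈ A)).card : ℝ) * (1 / 2 ^ j)
        ≤ (C * ((2 ^ (j + 1) : ℕ) : ℝ) * (Real.log ((2 ^ (j + 1) : ℕ) : ℝ)) ^ (-(1 + θ))) *
          (1 / 2 ^ j) := mul_le_mul_of_nonneg_right h2 (by positivity)
      _ = g j := by
          rw [hg]
          have h3 : Real.log ((2 ^ (j + 1) : ℕ) : ℝ) = Real.log 2 * ((j + 1 : ℕ) : ℝ) := by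
            push_cast
            rw [Real.log_pow]; push_cast; ring
          rw [h3, Real.mul_rpow hlog2.le (by positivity)]
          push_cast
          rw [pow_succ]
          field_simp
  -- all blocks
  set S0 : ℝ := ∑ i ∈ range (2 ^ N0), rec A i with hS0
  have hall : ∀ J : ℕ, ∑ j ∈ range J, ∑ i ∈ Ico (2 ^ j) (2 ^ (j + 1)), rec A i ≤
      S0 + ∑ j ∈ range J, g j := by
    intro J
    have h1 : ∀ j : ℕ, ∑ i ∈ Ico (2 ^ j) (2 ^ (j + 1)), rec A i ≤
        g j + (if j < N0 then ∑ i ∈ Ico (2 ^ j) (2 ^ (j + 1)), rec A i else 0) := by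
      intro j
      split_ifs with hj
      · linarith [hg0 j]
      · have : N0 ≤ 2 ^ (j + 1) := by
          have h2 : j + 1 < 2 ^ (j + 1) := Nat.lt_two_pow_self
          omega
        linarith [hblock j this]
    calc ∑ j ∈ range J, ∑ i ∈ Ico (2 ^ j) (2 ^ (j + 1)), rec A i
        ≤ ∑ j ∈ range J, (g j + (if j < N0 then ∑ i ∈ Ico (2 ^ j) (2 ^ (j + 1)), rec A i else 0)) :=
          sum_le_sum (fun j _ => h1 j)
      _ = ∑ j ∈ range J, g j +
          ∑ j ∈ range J, (if j < N0 then ∑ i ∈ Ico (2 ^ j) (2 ^ (j + 1)), rec A i else 0) :=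
          sum_add_distrib
      _ ≤ ∑ j ∈ range J, g j + S0 := by
          have h3 : ∑ j ∈ range J, (if j < N0 then ∑ i ∈ Ico (2 ^ j) (2 ^ (j + 1)), rec A i else 0)
              ≤ ∑ j ∈ range N0, ∑ i ∈ Ico (2 ^ j) (2 ^ (j + 1)), rec A i := by
            rw [← sum_filter]
            apply sum_le_sum_of_subset_of_nonneg
            · intro j hj
              rw [mem_filter] at hj
              rw [mem_range]; exact hj.2
            · intro j _ _
              exact sum_nonneg (fun i _ => rec_nonneg A i)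
          have h4 := sum_two_pow (rec A) N0
          have h5 : 0 ≤ rec A 0 := rec_nonneg A 0
          linarith
      _ = _ := by ring
  apply summable_of_sum_range_le (c := rec A 0 + (S0 + ∑' j, g j)) (fun n => rec_nonneg A n)
  intro n
  calc ∑ i ∈ range n, rec A i ≤ ∑ i ∈ range (2 ^ n), rec A i := by
        apply sum_le_sum_of_subset_of_nonneg
        · intro i hi
          rw [mem_range] at hi ⊢
          have : n < 2 ^ n := Nat.lt_two_pow_self
          omega
        · intro i _ _; exact rec_nonneg A i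
    _ = rec A 0 + ∑ j ∈ range n, ∑ i ∈ Ico (2 ^ j) (2 ^ (j + 1)), rec A i := sum_two_pow _ _
    _ ≤ rec A 0 + (S0 + ∑ j ∈ range n, g j) := by linarith [hall n]
    _ ≤ _ := by
        have := hgs.sum_le_tsum (range n) (fun j _ => hg0 j)
        linarith

end

end Vale.Agent.P057.H279
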