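import Vale.Agent.P057.R2.H279.Ident
import Vale.Agent.P057.R2.H279.Sum
import Mathlib.Analysis.SpecialFunctions.Pow.Asymptotics

set_option linter.all false

/-!
# P057: the conjecture of Erdos for sets of low complexity
-/

namespace Vale.Agent.P057.H279
open Finset

/-- a set of natural numbers contains a progression with `k` terms -/
def HasAPNat (A : Set ℕ) (k : ℕ) : Prop := ∃ a d : ℕ, 0 < d ∧ ∀ i : ℕ, i < k → a + i * d ∈ A

section
open Classical

lemma card_filter_zero (s : Finset ℤ) (p : ℤ → Prop) [DecidablePred p] (h : ∀ x ∈ s, ¬ p x) :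
    (s.filter p).card = 0 := by
  rw [filter_false_of_mem h, card_empty]

lemma VCLe.floor {B : Set ℤ} {x : ℝ} (h : VCLe B x) : VCLe B (⌊x⌋₊ : ℕ) := by
  intro S hS
  exact_mod_cast Nat.le_floor (h S hS)

lemma bound_at (A : Set ℕ) (k N d : ℕ) (hk : 2 ≤ k) (hd : 1 ≤ d) (hdN : (d : ℝ) ≤ Real.log N)
    (B : Set ℤ) (hB : ∀ n : ℕ, 1 ≤ n → n ≤ 2 * N → (n : ℤ) ∈ B → n ∈ A) (hvc : VCLe B d)
    (hA : ¬ HasAPNat A k) :
    (((Icc ((0 : ℤ) + 1) (0 + N)).filter (fun n => n ∈ B)).card : ℝ) ≤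
      36 * (k : ℝ) ^ 2 * (Real.log N / d) * (N : ℝ) ^ (1 - 1 / (d : ℝ)) := by
  obtain ⟨A', hA'⟩ : ∃ A' : Set ℤ, ∀ x : ℤ, x ∈ A' ↔ (1 ≤ x ∧ x ≤ 2 * (N : ℤ) ∧ x ∈ B) :=
    ⟨{x | 1 ≤ x ∧ x ≤ 2 * (N : ℤ) ∧ x ∈ B}, fun x => Iff.rfl⟩
  have hnat : ∀ x : ℤ, x ∈ A' → x.toNat ∈ A ∧ ((x.toNat : ℕ) : ℤ) = x := by
    intro x hx
    rw [hA'] at hx
    have h1 : ((x.toNat : ℕ) : ℤ) = x := Int.toNat_of_nonneg (by omega)
    refine ⟨?_, h1⟩
    apply hB x.toNat (by omega) (by omega)
    rw [h1]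
    exact hx.2.2
  have hno : ¬ HasAP A' k := by
    rintro ⟨a, d', hd', hap⟩
    apply hA
    have ha : a ∈ A' := by
      have := hap 0 (by omega)
      simpa using this
    have ha1 : 1 ≤ a := ((hA' a).mp ha).1
    refine ⟨a.toNat, d'.toNat, by omega, fun i hi => ?_⟩
    have h1 := (hnat _ (hap i hi)).1
    have h2 : (a + i * d').toNat = a.toNat + i * d'.toNat := by
      have h3 : (a + i * d') = ((a.toNat + i * d'.toNat : ℕ) : ℤ) := by
        push_cast
        rw [Int.toNat_of_nonneg (by omega), Int.toNat_of_nonneg hd'.le]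
      rw [h3, Int.toNat_natCast]
    rw [← h2]; exact h1
  exact main_bound k N d hk hd hdN A' B hvc hno 0 _ rfl (by
    refine le_trans (le_of_eq ?_) (Nat.zero_le _)
    refine mul_eq_zero_of_right _ ?_
    refine @card_filter_zero _ _ _ ?_
    intro x hx
    rw [mem_Icc] at hx
    push Not
    intro hxB
    rw [hA']
    exact ⟨by omega, by omega, hxB⟩)

theorem q1_general (A : Set ℕ) (η : ℝ) (hη0 : 0 < η) (hη1 : η < 1)
    (H : ∃ N0 : ℕ, ∀ N : ℕ, N0 ≤ N → ∃ B : Set ℤ,
      (∀ n : ℕ, 1 ≤ n → n ≤ 2 * N → (n : ℤ) ∈ B → n ∈ A) ∧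
      (((Icc 1 N).filter (fun n => n ∈ A)).card : ℝ) ≤ (Real.log N) ^ (η / 4) *
        (((Icc ((0 : ℤ) + 1) (0 + N)).filter (fun n => n ∈ B)).card : ℝ) ∧
      VCLe B ((1 - η) * Real.log N / Real.log (Real.log N)))
    (k : ℕ) (hk : 2 ≤ k) (hA : ¬ HasAPNat A k) : Summable (rec A) := by
  obtain ⟨N0, hN0⟩ := H
  have hη : 0 < 1 - η := by linarith
  have hev1 : ∀ᶠ y : ℝ in Filter.atTop, Real.log y ≤ (1 - η) * y := by
    have h1 := Real.isLittleO_log_id_atTop.bound hη
    filter_upwards [h1, Filter.eventually_ge_atTop (1 : ℝ)] with y hy hy1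
    rw [Real.norm_of_nonneg (Real.log_nonneg hy1), id, Real.norm_of_nonneg (by linarith)] at hy
    exact hy
  have hlogt : Filter.Tendsto (fun N : ℕ => Real.log (N : ℝ)) Filter.atTop Filter.atTop :=
    Real.tendsto_log_atTop.comp tendsto_natCast_atTop_atTop
  have hev2 := hlogt.eventually (hev1.and (Filter.eventually_ge_atTop (Real.exp 1)))
  obtain ⟨N1, hN1⟩ := Filter.eventually_atTop.mp hev2
  apply summable_rec A (72 * (k : ℝ) ^ 2 / η) (η / 4) (by positivity) (by positivity) (max N0 N1)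
  intro N hN hN2
  obtain ⟨B, hB, hAB, hvc⟩ := hN0 N (le_trans (le_max_left _ _) hN)
  obtain ⟨h1, h2⟩ := hN1 N (le_trans (le_max_right _ _) hN)
  set L := Real.log (N : ℝ) with hL
  have hNr : (0 : ℝ) < N := by
    have : 0 < N := by omega
    exact_mod_cast this
  have hLpos : 0 < L := lt_of_lt_of_le (Real.exp_pos 1) h2
  have hLL : 1 ≤ Real.log L := by
    rw [Real.le_log_iff_exp_le hLpos]; exact h2
  have hLL0 : 0 < Real.log L := by linarith
  set y : ℝ := (1 - η) * L / Real.log L with hy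
  have hy1 : 1 ≤ y := by
    rw [hy, le_div_iff₀ hLL0]; linarith
  set d : ℕ := ⌊y⌋₊ with hd
  have hd1 : 1 ≤ d := by
    rw [hd]; exact Nat.le_floor (by exact_mod_cast hy1)
  have hdy : (d : ℝ) ≤ y := Nat.floor_le (by linarith)
  have hyL : y ≤ L := by
    rw [hy, div_le_iff₀ hLL0]
    nlinarith
  have hdr : (0 : ℝ) < d := by exact_mod_cast hd1
  have hb := bound_at A k N d hk hd1 (hdy.trans hyL) B hB hvc.floor hA
  refine hAB.trans ?_
  set x : ℝ := L / d with hx
  have hx0 : 0 < x := by positivity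
  have hxlow : Real.log L ≤ (1 - η) * x := by
    have h3 : d * Real.log L ≤ (1 - η) * L := by
      calc d * Real.log L ≤ y * Real.log L := mul_le_mul_of_nonneg_right hdy hLL0.le
        _ = (1 - η) * L := by rw [hy]; field_simp
    rw [hx, mul_div_assoc', le_div_iff₀ hdr]
    linarith
  have hpow : (N : ℝ) ^ (1 - 1 / (d : ℝ)) = N * Real.exp (-x) := by
    rw [Real.rpow_sub hNr, Real.rpow_one, Real.exp_neg, div_eq_mul_inv]
    congr 2
    rw [Real.rpow_def_of_pos hNr]
    congr 1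
    rw [hx, ← hL]; ring
  rw [hpow] at hb
  have hxe : x ≤ 2 / η * Real.exp (η / 2 * x) := by
    have h3 := Real.add_one_le_exp (η / 2 * x)
    have h4 : η / 2 * x ≤ Real.exp (η / 2 * x) := by linarith
    calc x = 2 / η * (η / 2 * x) := by field_simp
      _ ≤ 2 / η * Real.exp (η / 2 * x) := mul_le_mul_of_nonneg_left h4 (by positivity)
  have hfin : x * Real.exp (-x) ≤ 2 / η * L ^ (-(1 + η / 2)) := by
    calc x * Real.exp (-x) ≤ (2 / η * Real.exp (η / 2 * x)) * Real.exp (-x) :=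
          mul_le_mul_of_nonneg_right hxe (Real.exp_pos _).le
      _ = 2 / η * Real.exp (-((1 - η / 2) * x)) := by
          rw [mul_assoc, ← Real.exp_add]; congr 2; ring
      _ ≤ 2 / η * Real.exp (Real.log L * (-(1 + η / 2))) := by
          apply mul_le_mul_of_nonneg_left _ (by positivity)
          apply Real.exp_le_exp.mpr
          have h5 : (1 + η / 2) * Real.log L ≤ (1 + η / 2) * ((1 - η) * x) :=
            mul_le_mul_of_nonneg_left hxlow (by linarith)
          have h6 : (1 + η / 2) * ((1 - η) * x) ≤ (1 - η / 2) * x := by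
            have h7 : (1 + η / 2) * (1 - η) ≤ 1 - η / 2 := by nlinarith
            calc (1 + η / 2) * ((1 - η) * x) = ((1 + η / 2) * (1 - η)) * x := by ring
              _ ≤ (1 - η / 2) * x := mul_le_mul_of_nonneg_right h7 hx0.le
          linarith
      _ = 2 / η * L ^ (-(1 + η / 2)) := by
          rw [Real.rpow_def_of_pos hLpos]
  have hpw : L ^ (η / 4) * L ^ (-(1 + η / 2)) = L ^ (-(1 + η / 4)) := by
    rw [← Real.rpow_add hLpos]; congr 1; ring
  calc L ^ (η / 4) * (((Icc ((0 : ℤ) + 1) (0 + N)).filter (fun n => n ∈ B)).card : ℝ)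
      ≤ L ^ (η / 4) * (36 * (k : ℝ) ^ 2 * x * (N * Real.exp (-x))) :=
        mul_le_mul_of_nonneg_left hb (by positivity)
    _ = L ^ (η / 4) * (36 * (k : ℝ) ^ 2 * N) * (x * Real.exp (-x)) := by ring
    _ ≤ L ^ (η / 4) * (36 * (k : ℝ) ^ 2 * N) * (2 / η * L ^ (-(1 + η / 2))) :=
        mul_le_mul_of_nonneg_left hfin (by positivity)
    _ = 72 * (k : ℝ) ^ 2 / η * N * (L ^ (η / 4) * L ^ (-(1 + η / 2))) := by ring
    _ = 72 * (k : ℝ) ^ 2 / η * N * L ^ (-(1 + η / 4)) := by rw [hpw]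

lemma vc_eventually (d : ℕ) : ∃ N0 : ℕ, ∀ N : ℕ, N0 ≤ N →
    (d : ℝ) ≤ (1 - 1 / 2) * Real.log N / Real.log (Real.log N) := by
  have hc : (0 : ℝ) < 1 / (2 * (d + 1)) := by positivity
  have hev1 : ∀ᶠ y : ℝ in Filter.atTop, Real.log y ≤ 1 / (2 * (d + 1)) * y := by
    have h1 := Real.isLittleO_log_id_atTop.bound hc
    filter_upwards [h1, Filter.eventually_ge_atTop (1 : ℝ)] with y hy hy1
    rw [Real.norm_of_nonneg (Real.log_nonneg hy1), id, Real.norm_of_nonneg (by linarith)] at hy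
    exact hy
  have hlogt : Filter.Tendsto (fun N : ℕ => Real.log (N : ℝ)) Filter.atTop Filter.atTop :=
    Real.tendsto_log_atTop.comp tendsto_natCast_atTop_atTop
  have hev2 := hlogt.eventually (hev1.and (Filter.eventually_ge_atTop (Real.exp 1)))
  obtain ⟨N1, hN1⟩ := Filter.eventually_atTop.mp hev2
  refine ⟨N1, fun N hN => ?_⟩
  obtain ⟨h1, h2⟩ := hN1 N hN
  set L := Real.log (N : ℝ) with hL
  have hLpos : 0 < L := lt_of_lt_of_le (Real.exp_pos 1) h2
  have hLL : 1 ≤ Real.log L := by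
    rw [Real.le_log_iff_exp_le hLpos]; exact h2
  rw [le_div_iff₀ (by linarith)]
  have h3 : (d : ℝ) * Real.log L ≤ d * (1 / (2 * (d + 1)) * L) :=
    mul_le_mul_of_nonneg_left h1 (by positivity)
  have h4 : (d : ℝ) * (1 / (2 * (d + 1)) * L) ≤ (1 - 1 / 2) * L := by
    have h5 : (d : ℝ) * (1 / (2 * (d + 1))) ≤ 1 / 2 := by
      rw [mul_one_div, div_le_iff₀ (by positivity)]
      linarith
    calc (d : ℝ) * (1 / (2 * (d + 1)) * L) = (d : ℝ) * (1 / (2 * (d + 1))) * L := by ring
      _ ≤ 1 / 2 * L := mul_le_mul_of_nonneg_right h5 hLpos.le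
      _ = _ := by ring
  linarith

/-- a finite set has VC-dimension at most `1 + log_2` of its cardinality -/
lemma vc_trivial (A : Finset ℤ) (hA : A.Nonempty) :
    VCLe (A : Set ℤ) (1 + Real.log A.card / Real.log 2) := by
  intro S hS
  have hlog2 : 0 < Real.log 2 := Real.log_pos (by norm_num)
  have hcard : (1 : ℝ) ≤ A.card := by exact_mod_cast hA.card_pos
  rcases S.eq_empty_or_nonempty with h0 | ⟨s0, hs0⟩
  · rw [h0, card_empty]
    push_cast
    have : 0 ≤ Real.log A.card := Real.log_nonneg hcard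
    positivity
  choose! t ht using hS
  have hinj : ((S.erase s0).powerset).card ≤ A.card := by
    apply card_le_card_of_injOn (fun T => s0 + t (insert s0 T))
    · intro T hT
      rw [coe_powerset, Set.mem_preimage, Set.mem_powerset_iff] at hT
      have hT' : insert s0 T ⊆ S := by
        intro x hx
        rw [mem_insert] at hx
        rcases hx with rfl | hx
        · exact hs0
        · have := hT (by exact_mod_cast hx : x ∈ (T : Set ℤ))
          rw [mem_coe, mem_erase] at this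
          exact this.2
      exact (ht _ hT' s0 hs0).mpr (mem_insert_self _ _)
    · intro T hT T' hT' hTT
      rw [coe_powerset, Set.mem_preimage, Set.mem_powerset_iff] at hT hT'
      have hs : ∀ T : Finset ℤ, (T : Set ℤ) ⊆ ((S.erase s0 : Finset ℤ) : Set ℤ) →
          insert s0 T ⊆ S ∧ T ⊆ S.erase s0 := by
        intro T hT
        have h1 : T ⊆ S.erase s0 := by exact_mod_cast hT
        refine ⟨?_, h1⟩
        intro x hx
        rw [mem_insert] at hx
        rcases hx with rfl | hx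
        · exact hs0
        · exact (mem_erase.mp (h1 hx)).2
      obtain ⟨h1, h1'⟩ := hs T hT
      obtain ⟨h2, h2'⟩ := hs T' hT'
      have htt : t (insert s0 T) = t (insert s0 T') := by
        have : s0 + t (insert s0 T) = s0 + t (insert s0 T') := hTT
        linarith
      have hins : insert s0 T = insert s0 T' := by
        ext x
        constructor
        · intro hx
          have h3 := (ht _ h1 x (h1 hx)).mpr hx
          rw [htt] at h3
          exact (ht _ h2 x (h1 hx)).mp h3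
        · intro hx
          have h3 := (ht _ h2 x (h2 hx)).mpr hx
          rw [← htt] at h3
          exact (ht _ h1 x (h2 hx)).mp h3
      have hn : ∀ T : Finset ℤ, T ⊆ S.erase s0 → (insert s0 T).erase s0 = T := by
        intro T hT
        apply erase_insert
        intro hc
        exact (mem_erase.mp (hT hc)).1 rfl
      rw [← hn T h1', ← hn T' h2', hins]
  rw [card_powerset, card_erase_of_mem hs0] at hinj
  have h1 : ((2 : ℝ)) ^ (S.card - 1) ≤ A.card := by exact_mod_cast hinj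
  have h2 : ((S.card - 1 : ℕ) : ℝ) * Real.log 2 ≤ Real.log A.card := by
    rw [← Real.log_pow]
    exact Real.log_le_log (by positivity) h1
  have hS1 : 1 ≤ S.card := card_pos.mpr ⟨s0, hs0⟩
  rw [Nat.cast_sub hS1] at h2
  have h3 : (S.card : ℝ) - 1 ≤ Real.log A.card / Real.log 2 := by
    rw [le_div_iff₀ hlog2]; exact_mod_cast h2
  linarith

end

end Vale.Agent.P057.H279
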