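import Vale.Agent.P057.R2.H279.Base
import Mathlib.Analysis.Complex.ExponentialBounds

set_option linter.all false

/-!
# P057: progressions in sets of low VC-dimension, identifying sets and the main bound
-/

namespace Vale.Agent.P057.H279
open Finset

section
open Classical

/-- many translates of a set without progressions are told apart by few points -/
theorem ident (k N : ℕ) (hk : 2 ≤ k) (hN : 1 ≤ Real.log N) (A B : Set ℤ) (hA : ¬ HasAP A k)
    (M : ℤ) (P : Finset ℤ) (hPdef : P = (Icc (M + 1) (M + N)).filter (fun x => x ∈ B))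
    (hPpos : 0 < P.card)
    (hE : 2 * k * ((Icc (M + 1) (M + 2 * N)).filter (fun x => x ∈ B ∧ x ∉ A)).card ≤ P.card) :
    ∃ (m : ℕ) (b : Fin m → ℤ), (m : ℝ) ≤ 13 * (k - 1) * N * Real.log N / P.card ∧
      Real.log N ≤ m ∧
      ∀ z ∈ range ((N + k - 1) / k), ∀ z' ∈ range ((N + k - 1) / k), z ≠ z' →
        ∃ i, ¬ ((b i + (z : ℤ) ∈ B) ↔ (b i + (z' : ℤ) ∈ B)) := by
  set T := (N + k - 1) / k with hT
  have hNpos : 0 < N := by
    rcases Nat.eq_zero_or_pos N with h | h
    · rw [h] at hN; simp at hN; linarith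
    · exact h
  have hk0 : 0 < k := by omega
  have hT1 : 1 ≤ T := by
    rw [hT, Nat.le_div_iff_mul_le hk0]; omega
  have hkT : k * T ≤ N + k - 1 := by
    rw [hT]; exact Nat.mul_div_le _ _
  have hkT' : k * (T - 1) + 1 ≤ N := by
    have h1 : k * T = k * (T - 1) + k := by
      obtain ⟨s, hs⟩ := Nat.exists_eq_succ_of_ne_zero (by omega : T ≠ 0)
      rw [hs]; simp [Nat.mul_succ]
    omega
  have hTN : T ≤ N := by
    have h1 : T - 1 ≤ k * (T - 1) := Nat.le_mul_of_pos_left _ hk0
    omega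
  set X : Finset ℤ := Icc (M + 1 - T) (M + 2 * N) with hX
  have hXcard : X.card = 2 * N + T := by
    rw [hX, Int.card_Icc]; omega
  have hPN : P.card ≤ N := by
    rw [hPdef]
    refine (card_filter_le _ _).trans ?_
    rw [Int.card_Icc]; omega
  have hPr : (0 : ℝ) < P.card := by exact_mod_cast hPpos
  have hNr : (0 : ℝ) < N := by exact_mod_cast hNpos
  have hk1 : (1 : ℝ) ≤ (k : ℝ) - 1 := by
    have : (2 : ℝ) ≤ k := by exact_mod_cast hk
    linarith
  set ε : ℝ := P.card / (6 * (k - 1) * N) with hε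
  have hεpos : 0 < ε := by positivity
  have hε1 : ε ≤ 1 / 6 := by
    rw [hε, div_le_iff₀ (by positivity)]
    have h1 : (P.card : ℝ) ≤ N := by exact_mod_cast hPN
    nlinarith
  -- one sided separation
  have hone : ∀ z z' : ℕ, z < z' → z' < T →
      ε * X.card ≤ ((X.filter (fun x => x + (z : ℤ) ∈ B ∧ x + (z' : ℤ) ∉ B)).card : ℝ) := by
    intro z z' hzz hzT
    have hu : (0 : ℤ) < (z' : ℤ) - z := by omega
    have hbound : ∀ j : ℕ, (j : ℤ) * ((z' : ℤ) - z) ≤ (j : ℤ) * (T - 1) := by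
      intro j
      apply mul_le_mul_of_nonneg_left _ (by positivity)
      omega
    have hkTz : (k : ℤ) * (T - 1) + 1 ≤ N := by
      have h1 : ((k * (T - 1) + 1 : ℕ) : ℤ) ≤ (N : ℤ) := by exact_mod_cast hkT'
      push_cast [Nat.cast_sub hT1] at h1
      linarith
    have hjk : ∀ j : ℕ, j < k → (j : ℤ) * ((z' : ℤ) - z) + 1 ≤ N := by
      intro j hj
      have h1 : (j : ℤ) * ((T : ℤ) - 1) ≤ (k : ℤ) * (T - 1) := by
        apply mul_le_mul_of_nonneg_right _ (by omega)
        exact_mod_cast hj.le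
      have h2 := hbound j
      linarith
    have hjn : ∀ j : ℕ, 0 ≤ (j : ℤ) * ((z' : ℤ) - z) := by
      intro j; positivity
    have hc := count A B k hA (z : ℤ) ((z' : ℤ) - z) hu P X
      ((Icc (M + 1) (M + 2 * N)).filter (fun x => x ∈ B ∧ x ∉ A))
      (by
        intro b hb
        rw [hPdef, mem_filter] at hb
        exact hb.2)
      (by
        intro b hb j hj hjB
        rw [hPdef, mem_filter, mem_Icc] at hb
        rw [hX, mem_Icc]
        have h1 := hjk j (by omega)
        have h2 := hjn j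
        constructor
        · omega
        · omega)
      (by
        intro b hb j hj hjB hjA
        rw [hPdef, mem_filter, mem_Icc] at hb
        rw [mem_filter, mem_Icc]
        have h1 := hjk j hj
        have h2 := hjn j
        refine ⟨⟨by omega, by omega⟩, hjB, hjA⟩)
    have hzz' : (z : ℤ) + ((z' : ℤ) - z) = z' := by ring
    rw [hzz'] at hc
    set D := X.filter (fun x => x + (z : ℤ) ∈ B ∧ x + (z' : ℤ) ∉ B) with hD
    set E := (Icc (M + 1) (M + 2 * N)).filter (fun x => x ∈ B ∧ x ∉ A) with hEdef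
    have hcr : (P.card : ℝ) ≤ ((k : ℝ) - 1) * D.card + k * E.card := by
      have h1 : ((P.card : ℕ) : ℝ) ≤ (((k - 1) * D.card + k * E.card : ℕ) : ℝ) := by
        exact_mod_cast hc
      push_cast [Nat.cast_sub (by omega : 1 ≤ k)] at h1
      exact h1
    have hEr : 2 * (k : ℝ) * E.card ≤ P.card := by exact_mod_cast hE
    have hXr : (X.card : ℝ) ≤ 3 * N := by
      rw [hXcard]; push_cast
      have : (T : ℝ) ≤ N := by exact_mod_cast hTN
      linarith
    have h2 : (P.card : ℝ) ≤ 2 * (((k : ℝ) - 1) * D.card) := by linarith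
    calc ε * X.card ≤ ε * (3 * N) := mul_le_mul_of_nonneg_left hXr hεpos.le
      _ = P.card / (2 * ((k : ℝ) - 1)) := by
          rw [hε]; field_simp; ring
      _ ≤ D.card := by
          rw [div_le_iff₀ (by positivity)]
          linarith
  have hsep : ∀ z ∈ range T, ∀ z' ∈ range T, z ≠ z' →
      ε * X.card ≤ ((X.filter (fun x => ¬ ((x + (z : ℤ) ∈ B) ↔ (x + (z' : ℤ) ∈ B)))).card : ℝ) := by
    intro z hz z' hz' hne
    rw [mem_range] at hz hz'
    rcases lt_or_gt_of_ne hne with h | h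
    · refine (hone z z' h hz').trans ?_
      exact_mod_cast card_le_card (fun x hx => by
        rw [mem_filter] at hx ⊢
        exact ⟨hx.1, fun hi => hx.2.2 (hi.mp hx.2.1)⟩)
    · refine (hone z' z h hz).trans ?_
      exact_mod_cast card_le_card (fun x hx => by
        rw [mem_filter] at hx ⊢
        exact ⟨hx.1, fun hi => hx.2.2 (hi.mpr hx.2.1)⟩)
  set m : ℕ := ⌊2 * Real.log N / ε⌋₊ + 1 with hm
  have hmlow : 2 * Real.log N / ε < m := by
    rw [hm]; push_cast; exact Nat.lt_floor_add_one _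
  have hbig : (12 : ℝ) ≤ 2 * Real.log N / ε := by
    rw [le_div_iff₀ hεpos]
    nlinarith
  have hmup : (m : ℝ) ≤ 2 * Real.log N / ε + 1 := by
    rw [hm]; push_cast
    have := Nat.floor_le (by positivity : 0 ≤ 2 * Real.log N / ε)
    linarith
  obtain ⟨b, hb1, hb2⟩ := exists_sample (fun (z : ℕ) (x : ℤ) => x + (z : ℤ) ∈ B) m ε
    (by linarith) X (by rw [hXcard]; omega) (range T) hsep (by
      rw [card_range]
      have h1 : 2 * Real.log N < ε * m := by
        rw [div_lt_iff₀ hεpos] at hmlow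
        linarith
      have h2 : (T : ℝ) ^ 2 ≤ (N : ℝ) ^ 2 := by
        apply pow_le_pow_left₀ (by positivity)
        exact_mod_cast hTN
      have h3 : (N : ℝ) ^ 2 = Real.exp (2 * Real.log N) := by
        rw [mul_comm, Real.exp_mul, Real.exp_log hNr]
        norm_cast
      calc (T : ℝ) ^ 2 * Real.exp (-(ε * m))
          ≤ Real.exp (2 * Real.log N) * Real.exp (-(ε * m)) := by
            rw [← h3]; exact mul_le_mul_of_nonneg_right h2 (Real.exp_pos _).le
        _ = Real.exp (2 * Real.log N - ε * m) := by rw [← Real.exp_add]; congr 1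
        _ < 1 := by
            rw [← Real.exp_zero]
            apply Real.exp_lt_exp.mpr
            linarith)
  refine ⟨m, b, ?_, ?_, hb2⟩
  · have h1 : (m : ℝ) ≤ 13 / 12 * (2 * Real.log N / ε) := by linarith
    refine h1.trans (le_of_eq ?_)
    rw [hε]; field_simp; ring
  · have h1 : Real.log N ≤ 2 * Real.log N / ε := by
      rw [le_div_iff₀ hεpos]
      nlinarith
    linarith

theorem main_bound (k N d : ℕ) (hk : 2 ≤ k) (hd : 1 ≤ d) (hdN : (d : ℝ) ≤ Real.log N)
    (A B : Set ℤ) (hvc : VCLe B d) (hA : ¬ HasAP A k)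
    (M : ℤ) (P : Finset ℤ) (hPdef : P = (Icc (M + 1) (M + N)).filter (fun x => x ∈ B))
    (hE : 2 * k * ((Icc (M + 1) (M + 2 * N)).filter (fun x => x ∈ B ∧ x ∉ A)).card ≤ P.card) :
    (P.card : ℝ) ≤ 36 * (k : ℝ) ^ 2 * (Real.log N / d) * (N : ℝ) ^ (1 - 1 / (d : ℝ)) := by
  have hd1 : (1 : ℝ) ≤ d := by exact_mod_cast hd
  have hlog : 1 ≤ Real.log N := hd1.trans hdN
  have hNpos : 0 < N := by
    rcases Nat.eq_zero_or_pos N with h | h
    · rw [h] at hlog; simp at hlog; linarith
    · exact h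
  have hNr : (0 : ℝ) < N := by exact_mod_cast hNpos
  rcases Nat.eq_zero_or_pos P.card with h0 | hPpos
  · rw [h0]; push_cast; positivity
  obtain ⟨m, b, hm1, hm2, hb⟩ := ident k N hk hlog A B hA M P hPdef hPpos hE
  set T := (N + k - 1) / k with hT
  have hk0 : 0 < k := by omega
  have hkr : (0 : ℝ) < k := by exact_mod_cast hk0
  have hk1 : (1 : ℝ) ≤ (k : ℝ) - 1 := by
    have : (2 : ℝ) ≤ k := by exact_mod_cast hk
    linarith
  have hPr : (0 : ℝ) < P.card := by exact_mod_cast hPpos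
  have hNT : (N : ℝ) / k ≤ T := by
    rw [div_le_iff₀ hkr]
    have h1 : N ≤ T * k := by
      have h2 := Nat.div_add_mod (N + k - 1) k
      have h3 := Nat.mod_lt (N + k - 1) hk0
      rw [← hT] at h2
      rw [mul_comm T k]
      omega
    exact_mod_cast h1
  have hdm : d ≤ m := by
    have : (d : ℝ) ≤ m := hdN.trans hm2
    exact_mod_cast this
  have hsau := sauer (fun (z : ℕ) (x : ℤ) => x + (z : ℤ) ∈ B) d m (by
    intro S hS
    have h1 : Shattered B S := by
      intro T' hT'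
      obtain ⟨z, hz⟩ := hS T' hT'
      exact ⟨(z : ℤ), hz⟩
    exact_mod_cast hvc S h1) b (range T) hb
  rw [card_range] at hsau
  have h1 : (T : ℝ) ≤ (Real.exp 1 * m / d) ^ d :=
    le_trans (by exact_mod_cast hsau) (sum_choose_le m d hd hdm)
  have hd0 : (0 : ℝ) < d := by linarith
  have h2 : ((N : ℝ) / k) ^ (1 / (d : ℝ)) ≤ Real.exp 1 * m / d := by
    calc ((N : ℝ) / k) ^ (1 / (d : ℝ)) ≤ ((Real.exp 1 * m / d) ^ d) ^ (1 / (d : ℝ)) := by
          apply Real.rpow_le_rpow (by positivity) (hNT.trans h1) (by positivity)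
      _ = Real.exp 1 * m / d := by
          rw [one_div, Real.pow_rpow_inv_natCast (by positivity) (by omega)]
  have h3 : (N : ℝ) ^ (1 / (d : ℝ)) / k ≤ ((N : ℝ) / k) ^ (1 / (d : ℝ)) := by
    rw [Real.div_rpow hNr.le hkr.le]
    apply div_le_div_of_nonneg_left (by positivity) (by positivity)
    calc (k : ℝ) ^ (1 / (d : ℝ)) ≤ (k : ℝ) ^ (1 : ℝ) := by
          apply Real.rpow_le_rpow_of_exponent_le (by linarith)
          rw [div_le_one hd0]; exact hd1
      _ = k := Real.rpow_one _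
  have h4 : (N : ℝ) ^ (1 / (d : ℝ)) / k ≤
      Real.exp 1 * (13 * (k - 1) * N * Real.log N / P.card) / d := by
    refine (h3.trans h2).trans ?_
    gcongr
  have hNd : (0 : ℝ) < (N : ℝ) ^ (1 / (d : ℝ)) := by positivity
  have h5 : (N : ℝ) ^ (1 - 1 / (d : ℝ)) = N / (N : ℝ) ^ (1 / (d : ℝ)) := by
    rw [Real.rpow_sub hNr, Real.rpow_one]
  rw [h5]
  have h6 : (P.card : ℝ) * (N : ℝ) ^ (1 / (d : ℝ)) * d ≤
      k * (Real.exp 1 * (13 * (k - 1) * N * Real.log N)) := by
    rw [div_le_div_iff₀ hkr hd0] at h4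
    have h7 : Real.exp 1 * (13 * ((k : ℝ) - 1) * N * Real.log N / P.card) * k * P.card =
        k * (Real.exp 1 * (13 * (k - 1) * N * Real.log N)) := by
      field_simp
    calc (P.card : ℝ) * (N : ℝ) ^ (1 / (d : ℝ)) * d
        = ((N : ℝ) ^ (1 / (d : ℝ)) * d) * P.card := by ring
      _ ≤ (Real.exp 1 * (13 * ((k : ℝ) - 1) * N * Real.log N / P.card) * k) * P.card :=
          mul_le_mul_of_nonneg_right h4 hPr.le
      _ = _ := h7
  have he : Real.exp 1 ≤ 2.7182818286 := Real.exp_one_lt_d9.le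
  have h8 : k * (Real.exp 1 * (13 * ((k : ℝ) - 1) * N * Real.log N)) ≤
      36 * (k : ℝ) ^ 2 * (N * Real.log N) := by
    have hlog0 : 0 ≤ Real.log N := by linarith
    have h9 : Real.exp 1 * 13 * ((k : ℝ) - 1) ≤ 36 * k := by nlinarith
    calc k * (Real.exp 1 * (13 * ((k : ℝ) - 1) * N * Real.log N))
        = (Real.exp 1 * 13 * ((k : ℝ) - 1)) * (k * (N * Real.log N)) := by ring
      _ ≤ (36 * k) * (k * (N * Real.log N)) := by
          apply mul_le_mul_of_nonneg_right h9; positivity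
      _ = _ := by ring
  have h10 : (P.card : ℝ) ≤ 36 * (k : ℝ) ^ 2 * (N * Real.log N) / ((N : ℝ) ^ (1 / (d : ℝ)) * d) := by
    rw [le_div_iff₀ (by positivity)]
    linarith
  refine h10.trans (le_of_eq ?_)
  field_simp

end

end Vale.Agent.P057.H279
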