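import Vale.Agent.P057.R2.H279.Fin

set_option linter.all false

/-!
# P057: the conjecture of Erdos for sets of low complexity, series form
-/

namespace Vale.Agent.P057.H279
open Finset

section
open Classical

lemma summable_series (A : Set ℕ) (x : ℕ → ℝ) (hx : Summable x) (hx0 : ∀ j, 0 ≤ x j) (j0 : ℕ)
    (h : ∀ j : ℕ, j0 ≤ j →
      (((Icc 1 (2 ^ j)).filter (fun n => n ∈ A)).card : ℝ) ≤ 2 ^ j * x j) :
    Summable (rec A) := by
  set g : ℕ → ℝ := fun j => 2 * x (j + 1) with hg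
  have hgs : Summable g := ((summable_nat_add_iff 1).mpr hx).mul_left _
  have hg0 : ∀ j, 0 ≤ g j := by intro j; rw [hg]; have := hx0 (j + 1); positivity
  have hblock : ∀ j : ℕ, j0 ≤ j + 1 → ∑ i ∈ Ico (2 ^ j) (2 ^ (j + 1)), rec A i ≤ g j := by
    intro j hj
    have h1 : ∑ i ∈ Ico (2 ^ j) (2 ^ (j + 1)), rec A i ≤
        (((Icc 1 (2 ^ (j + 1))).filter (fun n => n ∈ A)).card : ℝ) * (1 / 2 ^ j) := by
      calc ∑ i ∈ Ico (2 ^ j) (2 ^ (j + 1)), rec A i
          ≤ ∑ i ∈ Ico (2 ^ j) (2 ^ (j + 1)), (if i ∈ A then (1 / 2 ^ j : ℝ) else 0) := by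
            apply sum_le_sum
            intro i hi
            rw [mem_Ico] at hi
            unfold rec
            split_ifs
            · apply one_div_le_one_div_of_le (by positivity)
              exact_mod_cast hi.1
            · exact le_refl _
        _ = (((Ico (2 ^ j) (2 ^ (j + 1))).filter (fun n => n ∈ A)).card : ℝ) * (1 / 2 ^ j) := by
            rw [← sum_filter, sum_const, nsmul_eq_mul]
        _ ≤ _ := by
            apply mul_le_mul_of_nonneg_right _ (by positivity)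
            exact_mod_cast card_le_card (fun x hx => by
              rw [mem_filter, mem_Ico] at hx
              rw [mem_filter, mem_Icc]
              have : 1 ≤ 2 ^ j := Nat.one_le_two_pow
              exact ⟨⟨by omega, by omega⟩, hx.2⟩)
    have h2 := h (j + 1) hj
    refine h1.trans ?_
    calc (((Icc 1 (2 ^ (j + 1))).filter (fun n => n ∈ A)).card : ℝ) * (1 / 2 ^ j)
        ≤ (2 ^ (j + 1) * x (j + 1)) * (1 / 2 ^ j) := mul_le_mul_of_nonneg_right h2 (by positivity)
      _ = g j := by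
          rw [hg]
          simp only
          rw [pow_succ]
          field_simp
  set S0 : ℝ := ∑ i ∈ range (2 ^ j0), rec A i with hS0
  have hall : ∀ J : ℕ, ∑ j ∈ range J, ∑ i ∈ Ico (2 ^ j) (2 ^ (j + 1)), rec A i ≤
      S0 + ∑ j ∈ range J, g j := by
    intro J
    have h1 : ∀ j : ℕ, ∑ i ∈ Ico (2 ^ j) (2 ^ (j + 1)), rec A i ≤
        g j + (if j < j0 then ∑ i ∈ Ico (2 ^ j) (2 ^ (j + 1)), rec A i else 0) := by
      intro j
      split_ifs with hj
      · linarith [hg0 j]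
      · linarith [hblock j (by omega)]
    calc ∑ j ∈ range J, ∑ i ∈ Ico (2 ^ j) (2 ^ (j + 1)), rec A i
        ≤ ∑ j ∈ range J, (g j + (if j < j0 then ∑ i ∈ Ico (2 ^ j) (2 ^ (j + 1)), rec A i else 0)) :=
          sum_le_sum (fun j _ => h1 j)
      _ = ∑ j ∈ range J, g j +
          ∑ j ∈ range J, (if j < j0 then ∑ i ∈ Ico (2 ^ j) (2 ^ (j + 1)), rec A i else 0) :=
          sum_add_distrib
      _ ≤ ∑ j ∈ range J, g j + S0 := by
          have h3 : ∑ j ∈ range J, (if j < j0 then ∑ i ∈ Ico (2 ^ j) (2 ^ (j + 1)), rec A i else 0)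
              ≤ ∑ j ∈ range j0, ∑ i ∈ Ico (2 ^ j) (2 ^ (j + 1)), rec A i := by
            rw [← sum_filter]
            apply sum_le_sum_of_subset_of_nonneg
            · intro j hj
              rw [mem_filter] at hj
              rw [mem_range]; exact hj.2
            · intro j _ _
              exact sum_nonneg (fun i _ => rec_nonneg A i)
          have h4 := sum_two_pow (rec A) j0
          have h5 : 0 ≤ rec A 0 := rec_nonneg A 0
          linarith
      _ = _ := by ring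
  apply summable_of_sum_range_le (c := rec A 0 + (S0 + ∑' j, g j)) (fun n => rec_nonneg A n)
  intro n
  calc ∑ i ∈ range n, rec A i ≤ ∑ i ∈ range (2 ^ n), rec A i := by
        apply sum_le_sum_of_subset_of_nonneg
        · intro i hi
          rw [mem_range] at hi ⊢
          have : n < 2 ^ n := Nat.lt_two_pow_self
          omega
        · intro i _ _; exact rec_nonneg A i
    _ = rec A 0 + ∑ j ∈ range n, ∑ i ∈ Ico (2 ^ j) (2 ^ (j + 1)), rec A i := sum_two_pow _ _
    _ ≤ rec A 0 + (S0 + ∑ j ∈ range n, g j) := by linarith [hall n]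
    _ ≤ _ := by
        have := hgs.sum_le_tsum (range n) (fun j _ => hg0 j)
        linarith

theorem q1_series (A : Set ℕ) (D : ℕ → ℕ) (K : ℕ → ℝ) (j0 : ℕ) (hK : ∀ j, 0 ≤ K j)
    (hD : ∀ j : ℕ, j0 ≤ j → 1 ≤ D j ∧ 2 * D j ≤ j ∧ ∃ B : Set ℤ,
      (∀ n : ℕ, 1 ≤ n → n ≤ 2 ^ (j + 1) → (n : ℤ) ∈ B → n ∈ A) ∧
      (((Icc 1 (2 ^ j)).filter (fun n => n ∈ A)).card : ℝ) ≤ K j *
        (((Icc ((0 : ℤ) + 1) (0 + (2 ^ j : ℕ))).filter (fun n => n ∈ B)).card : ℝ) ∧
      VCLe B (D j))
    (hs : Summable (fun j : ℕ => K j * (((j : ℝ) / D j) * (2 : ℝ) ^ (-((j : ℝ) / D j)))))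
    (k : ℕ) (hk : 2 ≤ k) (hA : ¬ HasAPNat A k) : Summable (rec A) := by
  have hlog2 : 0 < Real.log 2 := Real.log_pos (by norm_num)
  apply summable_series A (fun j => 36 * (k : ℝ) ^ 2 * Real.log 2 *
    (K j * (((j : ℝ) / D j) * (2 : ℝ) ^ (-((j : ℝ) / D j))))) (hs.mul_left _)
    (fun j => by have := hK j; positivity) j0
  intro j hj
  obtain ⟨h1, h2, B, hB, hAB, hvc⟩ := hD j hj
  have hlogN : Real.log ((2 ^ j : ℕ) : ℝ) = j * Real.log 2 := by
    push_cast
    rw [Real.log_pow]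
  have hDr : (0 : ℝ) < D j := by exact_mod_cast h1
  have hb := bound_at A k (2 ^ j) (D j) hk h1 (by
    rw [hlogN]
    have h3 : (2 : ℝ) * D j ≤ j := by exact_mod_cast h2
    have h4 := Real.log_two_gt_d9
    nlinarith) B (by
      intro n hn1 hn2
      exact hB n hn1 (by rw [pow_succ]; omega)) hvc hA
  refine hAB.trans ?_
  refine (mul_le_mul_of_nonneg_left hb (hK j)).trans (le_of_eq ?_)
  rw [hlogN]
  have h5 : (((2 ^ j : ℕ) : ℝ)) ^ (1 - 1 / (D j : ℝ)) = 2 ^ j * (2 : ℝ) ^ (-((j : ℝ) / D j)) := by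
    push_cast
    rw [← Real.rpow_natCast 2 j, ← Real.rpow_mul (by norm_num), ← Real.rpow_add (by norm_num)]
    congr 1
    field_simp
    ring
  rw [h5]
  ring

end

end Vale.Agent.P057.H279
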